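import Vale.Agent.P363.H761.TenRot
import Vale.Agent.P363.H868.TenAct

/-!
Rotations, spin flip and spin phases on `C5`, `C4`, in the form used for tensor states.
-/

namespace Vale.Agent.P363.H761

open Vale.Agent.P363.H979.CI Vale.Agent.P363.Stmt Vale.Agent.P363.H868
open scoped ComplexConjugate

noncomputable section

variable {N : ℕ}

theorem rotT_eq_act (M : Fin 5 → Fin 5 → ℝ) (c : Ten N) : rotT M c = act (orbT M) c := by
  funext J
  unfold rotT act
  -- split the sum over `I` into orbital and spin labels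
  rw [← Equiv.sum_comp (Equiv.arrowProdEquivProdArrow (Fin N) (fun _ => Fin 5)
    (fun _ => Fin 2)).symm, Fintype.sum_prod_type]
  refine Finset.sum_congr rfl fun a _ => ?_
  rw [Finset.sum_eq_single (fun i => (J i).2)]
  · have h1 : (Equiv.arrowProdEquivProdArrow (Fin N) (fun _ => Fin 5)
        (fun _ => Fin 2)).symm (a, fun i => (J i).2) = fun i => (a i, (J i).2) := rfl
    rw [h1]
    congr 1
    push_cast
    refine Finset.prod_congr rfl fun i _ => ?_
    simp [orbT]
  · intro s _ hs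
    obtain ⟨i, hi⟩ := Function.ne_iff.1 hs
    have h1 : (Equiv.arrowProdEquivProdArrow (Fin N) (fun _ => Fin 5)
        (fun _ => Fin 2)).symm (a, s) = fun i => (a i, s i) := rfl
    rw [h1, Finset.prod_eq_zero (Finset.mem_univ i), zero_mul]
    simp [orbT, hi]
  · intro h
    exact absurd (Finset.mem_univ _) h

theorem blk_Mrot (A : R3 ≃ₗᵢ[ℝ] R3) : Blk (Mrot A) where
  r0 j := by fin_cases j <;> simp [Mrot]
  r1 j := by fin_cases j <;> simp [Mrot]
  z0 a ha := by
    fin_cases a
    · exact absurd ha (by decide)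
    · exact absurd ha (by decide)
    all_goals simp [Mrot]
  z1 a ha := by
    fin_cases a
    · exact absurd ha (by decide)
    · exact absurd ha (by decide)
    all_goals simp [Mrot]
  col b c := by
    have h := fun k l => mat_col A k l
    simp only [Fin.sum_univ_three] at h
    rw [Finset.sum_insert (by decide), Finset.sum_insert (by decide), Finset.sum_singleton]
    have h00 := h 0 0
    have h01 := h 0 1
    have h02 := h 0 2
    have h10 := h 1 0
    have h11 := h 1 1
    have h12 := h 1 2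
    have h20 := h 2 0
    have h21 := h 2 1
    have h22 := h 2 2
    simp at h00 h01 h02 h10 h11 h12 h20 h21 h22
    fin_cases b <;> fin_cases c <;> simp [Mrot] <;> linarith

theorem Mrot_succ (A : R3 ≃ₗᵢ[ℝ] R3) (j k : Fin 3) :
    Mrot A j.succ.succ k.succ.succ = mat A j k := by
  fin_cases j <;> fin_cases k <;> rfl

theorem two_le_succ (j : Fin 3) : (2 : Fin 5) ≤ j.succ.succ := by
  fin_cases j <;> decide

theorem sum234 {M : Type*} [AddCommMonoid M] (f : Fin 5 → M) :
    ∑ a ∈ ({2, 3, 4} : Finset (Fin 5)), f a = ∑ k : Fin 3, f k.succ.succ := by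
  rw [Finset.sum_insert (by decide), Finset.sum_insert (by decide), Finset.sum_singleton,
    Fin.sum_univ_three, ← add_assoc]
  rfl

theorem rotT_C5 (A : R3 ≃ₗᵢ[ℝ] R3) (j : Fin 3) (s : Fin 2) :
    rotT (Mrot A) (C5 j.succ.succ s) = ∑ k : Fin 3, (mat A j k : ℂ) • C5 k.succ.succ s := by
  rw [rotT_eq_act, act_C5 (blk_Mrot A) (two_le_succ j), sum234]
  refine Finset.sum_congr rfl fun k _ => ?_
  rw [Mrot_succ]

theorem rotT_C4 (A : R3 ≃ₗᵢ[ℝ] R3) : rotT (Mrot A) C4 = C4 := by
  rw [rotT_eq_act, act_C4 (blk_Mrot A)]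

theorem flipT_C5 (e : Fin 5) (s : Fin 2) :
    flipT (Equiv.swap 0 1) (C5 e s) = C5 e (Equiv.swap 0 1 s) := by
  funext J
  exact C5_flp e s J

theorem flipT_C4 : flipT (Equiv.swap 0 1) C4 = C4 := by
  funext J
  exact C4_flp J

theorem phT_C5 (ζ : Fin 2 → ℂ) (e : Fin 5) (s : Fin 2) :
    phT ζ (C5 e s) = (ζ 0 ^ 2 * ζ 1 ^ 2 * ζ s) • C5 e s := by
  funext J
  exact C5_phase ζ e s J

theorem phT_C4 (ζ : Fin 2 → ℂ) : phT ζ C4 = (ζ 0 ^ 2 * ζ 1 ^ 2) • C4 := by
  funext J
  exact C4_phase ζ J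

end

end Vale.Agent.P363.H761
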