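import Vale.Agent.P363.H761.Ten
import Mathlib.Tactic.FinCases

/-!
The ground tensors `C5`, `C4`: norms, orthogonality, Dyson tensor, density matrix.
-/

namespace Vale.Agent.P363.H761

open Vale.Agent.P363.H979.CI
open scoped ComplexConjugate

noncomputable section

/-- coefficients of `C5 e s`. -/
def co5 (e a : Fin 5) : ℝ := if a = 1 then 1 else if 2 ≤ a ∧ a ≠ e then t5 else 0

/-- coefficients of `C4`. -/
def co4 (a : Fin 5) : ℝ := if a = 1 then 1 else if 2 ≤ a then t4 else 0

theorem co5_ne {e a : Fin 5} (he : 2 ≤ e) (h : co5 e a ≠ 0) : a ≠ 0 ∧ a ≠ e := by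
  unfold co5 at h
  split_ifs at h with h1 h2
  · subst h1
    refine ⟨by decide, ?_⟩
    rintro rfl
    exact absurd he (by decide)
  · refine ⟨?_, h2.2⟩
    rintro rfl
    exact absurd h2.1 (by decide)
  · exact absurd rfl h

theorem co4_ne {a : Fin 5} (h : co4 a ≠ 0) : a ≠ 0 := by
  unfold co4 at h
  split_ifs at h with h1 h2
  · subst h1; decide
  · rintro rfl
    exact absurd h2 (by decide)
  · exact absurd rfl h

theorem C5_eq (e : Fin 5) (s : Fin 2) :
    C5 e s = (eta5 : ℂ) • ∑ a, (co5 e a : ℂ) • asym (ind (tup5 a e s)) := by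
  unfold C5
  have h : (fun J => (eta5 : ℂ) * (ind (tup5 1 e s) J +
    (t5 : ℂ) * ∑ a : Fin 5, if 2 ≤ a ∧ a ≠ e then ind (tup5 a e s) J else 0)) =
      (eta5 : ℂ) • ∑ a, (co5 e a : ℂ) • ind (tup5 a e s) := by
    funext J
    simp only [Pi.smul_apply, Finset.sum_apply, smul_eq_mul, co5]
    congr 1
    simp only [Fin.sum_univ_five]
    simp only [show ¬ ((0 : Fin 5) = 1) by decide, show ¬ ((2 : Fin 5) ≤ 0) by decide,
      show ¬ ((2 : Fin 5) ≤ 1) by decide, show ¬ ((2 : Fin 5) = 1) by decide,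
      show ¬ ((3 : Fin 5) = 1) by decide, show ¬ ((4 : Fin 5) = 1) by decide, if_false, if_true,
      false_and]
    split_ifs <;> push_cast <;> ring
  rw [h, asym_smul, asym_sum]
  simp only [asym_smul]

theorem C4_eq : C4 = (eta4 : ℂ) • ∑ a, (co4 a : ℂ) • asym (ind (tup4 a)) := by
  unfold C4
  have h : (fun J => (eta4 : ℂ) * (ind (tup4 1) J +
    (t4 : ℂ) * ∑ a : Fin 5, if 2 ≤ a then ind (tup4 a) J else 0)) =
      (eta4 : ℂ) • ∑ a, (co4 a : ℂ) • ind (tup4 a) := by
    funext J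
    simp only [Pi.smul_apply, Finset.sum_apply, smul_eq_mul, co4]
    congr 1
    simp only [Fin.sum_univ_five]
    simp only [show ¬ ((0 : Fin 5) = 1) by decide, show ¬ ((2 : Fin 5) ≤ 0) by decide,
      show ¬ ((2 : Fin 5) ≤ 1) by decide, show ¬ ((2 : Fin 5) = 1) by decide,
      show ¬ ((3 : Fin 5) = 1) by decide, show ¬ ((4 : Fin 5) = 1) by decide, if_false, if_true]
    split_ifs <;> push_cast <;> ring
  rw [h, asym_smul, asym_sum]
  simp only [asym_smul]

/-- the un-antisymmetrised tensor of `C5`. -/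
def b5 (e : Fin 5) (s : Fin 2) : Ten 5 := (eta5 : ℂ) • ∑ a, (co5 e a : ℂ) • ind (tup5 a e s)

/-- the un-antisymmetrised tensor of `C4`. -/
def b4 : Ten 4 := (eta4 : ℂ) • ∑ a, (co4 a : ℂ) • ind (tup4 a)

theorem C5_asym (e : Fin 5) (s : Fin 2) : C5 e s = asym (b5 e s) := by
  rw [C5_eq, b5, asym_smul, asym_sum]
  simp only [asym_smul]

theorem C4_asym : C4 = asym b4 := by
  rw [C4_eq, b4, asym_smul, asym_sum]
  simp only [asym_smul]

theorem anti_C5 (e : Fin 5) (s : Fin 2) : Anti (C5 e s) := anti_asym _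

theorem anti_C4 : Anti C4 := anti_asym _

/-! ### tuples -/

theorem tup5_inj {a e : Fin 5} (ha : a ≠ 0) (hae : a ≠ e) (he : e ≠ 0) (s : Fin 2) :
    Function.Injective (tup5 a e s) := by
  intro i j h
  have ha' := ha.symm
  have hae' := hae.symm
  have he' := he.symm
  fin_cases i <;> fin_cases j <;> simp_all [tup5]

theorem tup4_inj {a : Fin 5} (ha : a ≠ 0) : Function.Injective (tup4 a) := by
  intro i j h
  have ha' := ha.symm
  fin_cases i <;> fin_cases j <;> simp_all [tup4]

theorem tup5_ex {a e : Fin 5} {s : Fin 2} {p : SO} (h : ∃ l, tup5 a e s l = p) :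
    p = (0, 0) ∨ p = (0, 1) ∨ p = (a, 0) ∨ p = (a, 1) ∨ p = (e, s) := by
  obtain ⟨l, rfl⟩ := h
  fin_cases l <;> simp [tup5]

theorem tup4_ex {a : Fin 5} {p : SO} (h : ∃ l, tup4 a l = p) :
    p = (0, 0) ∨ p = (0, 1) ∨ p = (a, 0) ∨ p = (a, 1) := by
  obtain ⟨l, rfl⟩ := h
  fin_cases l <;> simp [tup4]

/-- values of the Slater tensors at the tuples with one label replaced. -/
theorem S5_update {a a' e : Fin 5} (s : Fin 2) (ha : a ≠ 0) (ha' : a' ≠ 0) (hae : a ≠ e)
    (hae' : a' ≠ e) (he : e ≠ 0) (i : Fin 5) (q : SO) :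
    asym (ind (tup5 a' e s)) (Function.update (tup5 a e s) i q) =
      if a' = a ∧ q = tup5 a e s i then 1 else 0 := by
  split_ifs with h
  · obtain ⟨rfl, rfl⟩ := h
    rw [Function.update_eq_self]
    exact asym_ind_self (tup5_inj ha' hae' he s)
  · by_contra hne
    apply h
    have hm := mem_of_asym_ind_ne hne
    have haa : a' = a := by
      by_contra haa
      have key : ∀ u : Fin 2, q = (a', u) := by
        intro u
        have h1 : ∃ k, tup5 a' e s k = (a', u) := by
          fin_cases u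
          · exact ⟨2, rfl⟩
          · exact ⟨3, rfl⟩
        obtain ⟨k, hk⟩ := h1
        obtain ⟨l, hl⟩ := hm k
        rw [hk] at hl
        by_cases hli : l = i
        · subst hli
          rwa [Function.update_self] at hl
        · rw [Function.update_of_ne hli] at hl
          rcases tup5_ex ⟨l, hl⟩ with h2 | h2 | h2 | h2 | h2 <;>
            simp_all
      have h0 := key 0
      have h1 := key 1
      rw [h0] at h1
      simp at h1
    refine ⟨haa, ?_⟩
    subst haa
    obtain ⟨l, hl⟩ := hm i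
    by_cases hli : l = i
    · subst hli
      rwa [Function.update_self] at hl
    · rw [Function.update_of_ne hli] at hl
      exact absurd (tup5_inj ha' hae' he s hl) hli

/-- orthogonality of the Slater tensors. -/
theorem S5_tup {a a' e e' : Fin 5} {s s' : Fin 2} (ha : a ≠ 0) (ha' : a' ≠ 0) (hae : a ≠ e)
    (hae' : a' ≠ e') (he : e ≠ 0) (he' : e' ≠ 0) :
    asym (ind (tup5 a' e' s')) (tup5 a e s) = if a' = a ∧ e' = e ∧ s' = s then 1 else 0 := by
  split_ifs with h
  · obtain ⟨rfl, rfl, rfl⟩ := h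
    exact asym_ind_self (tup5_inj ha' hae' he' s')
  · by_contra hne
    apply h
    have hm := mem_of_asym_ind_ne hne
    have haa : a' = a := by
      by_contra haa
      have key : ∀ u : Fin 2, (e, s) = (a', u) := by
        intro u
        have h1 : ∃ k, tup5 a' e' s' k = (a', u) := by
          fin_cases u
          · exact ⟨2, rfl⟩
          · exact ⟨3, rfl⟩
        obtain ⟨k, hk⟩ := h1
        have hl := hm k
        rw [hk] at hl
        rcases tup5_ex hl with h2 | h2 | h2 | h2 | h2 <;> simp_all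
      have h0 := key 0
      have h1 := key 1
      rw [h0] at h1
      simp at h1
    refine ⟨haa, ?_⟩
    subst haa
    have hl := hm 4
    have h4 : tup5 a' e' s' 4 = (e', s') := rfl
    rw [h4] at hl
    rcases tup5_ex hl with h2 | h2 | h2 | h2 | h2 <;> simp_all

/-- values of the Slater tensors at the tuples of the ion with one label in front. -/
theorem S5_cons {a a' e : Fin 5} (s : Fin 2) (ha : a ≠ 0) (ha' : a' ≠ 0)
    (hae' : a' ≠ e) (he : e ≠ 0) (q : SO) :
    asym (ind (tup5 a' e s)) (Fin.cons q (tup4 a)) =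
      if a' = a ∧ q = (e, s) then 1 else 0 := by
  split_ifs with h
  · obtain ⟨rfl, rfl⟩ := h
    have h1 : (Fin.cons (e, s) (tup4 a') : Fin 5 → SO) =
        tup5 a' e s ∘ (finRotate 5).symm := by
      funext i
      fin_cases i <;> rfl
    rw [h1, anti_asym, asym_ind_self (tup5_inj ha' hae' he s)]
    rw [Equiv.Perm.sign_symm, sign_finRotate]
    norm_num
  · by_contra hne
    apply h
    have hm := mem_of_asym_ind_ne hne
    have hm' : ∀ k, q = tup5 a' e s k ∨ ∃ l, tup4 a l = tup5 a' e s k := by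
      intro k
      obtain ⟨l, hl⟩ := hm k
      induction l using Fin.cases with
      | zero => left; simpa using hl
      | succ j => right; exact ⟨j, by simpa using hl⟩
    have haa : a' = a := by
      by_contra haa
      have key : ∀ u : Fin 2, q = (a', u) := by
        intro u
        have h1 : ∃ k, tup5 a' e s k = (a', u) := by
          fin_cases u
          · exact ⟨2, rfl⟩
          · exact ⟨3, rfl⟩
        obtain ⟨k, hk⟩ := h1
        have hl := hm' k
        rw [hk] at hl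
        rcases hl with hl | hl
        · exact hl
        · rcases tup4_ex hl with h2 | h2 | h2 | h2 <;> simp_all
      have h0 := key 0
      have h1 := key 1
      rw [h0] at h1
      simp at h1
    refine ⟨haa, ?_⟩
    subst haa
    have hl := hm' 4
    have h4 : tup5 a' e s 4 = (e, s) := rfl
    rw [h4] at hl
    rcases hl with hl | hl
    · exact hl
    · have hae := hae'.symm
      rcases tup4_ex hl with h2 | h2 | h2 | h2 <;> simp_all

theorem S4_tup {a a' : Fin 5} (ha : a ≠ 0) (ha' : a' ≠ 0) :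
    asym (ind (tup4 a')) (tup4 a) = if a' = a then 1 else 0 := by
  split_ifs with h
  · subst h
    exact asym_ind_self (tup4_inj ha')
  · by_contra hne
    apply h
    have hm := mem_of_asym_ind_ne hne
    have hl := hm 2
    have h4 : tup4 a' 2 = (a', 0) := rfl
    rw [h4] at hl
    rcases tup4_ex hl with h2 | h2 | h2 | h2 <;> simp_all

/-! ### values of `C5` and `C4` -/

theorem two_le_ne {e : Fin 5} (he : 2 ≤ e) : e ≠ 0 := by
  rintro rfl
  exact absurd he (by decide)

theorem C5_update {a e : Fin 5} (s : Fin 2) (he : 2 ≤ e) (ha : co5 e a ≠ 0) (i : Fin 5) (q : SO) :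
    C5 e s (Function.update (tup5 a e s) i q) =
      if q = tup5 a e s i then (eta5 : ℂ) * co5 e a else 0 := by
  obtain ⟨h1, h2⟩ := co5_ne he ha
  rw [C5_eq]
  simp only [Pi.smul_apply, Finset.sum_apply, smul_eq_mul]
  rw [Finset.sum_eq_single a]
  · rw [S5_update s h1 h1 h2 h2 (two_le_ne he)]
    simp
  · intro a' _ haa
    by_cases hc : co5 e a' = 0
    · simp [hc]
    · obtain ⟨h3, h4⟩ := co5_ne he hc
      rw [S5_update s h1 h3 h2 h4 (two_le_ne he)]
      simp [haa]
  · intro h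
    exact absurd (Finset.mem_univ _) h

theorem C5_tup {a e e' : Fin 5} {s s' : Fin 2} (he : 2 ≤ e) (he' : 2 ≤ e') (ha : co5 e a ≠ 0) :
    C5 e' s' (tup5 a e s) = if e' = e ∧ s' = s then (eta5 : ℂ) * co5 e a else 0 := by
  obtain ⟨h1, h2⟩ := co5_ne he ha
  rw [C5_eq]
  simp only [Pi.smul_apply, Finset.sum_apply, smul_eq_mul]
  rw [Finset.sum_eq_single a]
  · by_cases hc : co5 e' a = 0
    · have : e' ≠ e := by
        rintro rfl
        exact ha hc
      simp [hc, this]
    · obtain ⟨h3, h4⟩ := co5_ne he' hc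
      rw [S5_tup h1 h1 h2 h4 (two_le_ne he) (two_le_ne he')]
      by_cases h : e' = e ∧ s' = s
      · obtain ⟨rfl, rfl⟩ := h
        simp
      · rw [if_neg h, if_neg (fun h' => h h'.2)]
        simp
  · intro a' _ haa
    by_cases hc : co5 e' a' = 0
    · simp [hc]
    · obtain ⟨h3, h4⟩ := co5_ne he' hc
      rw [S5_tup h1 h3 h2 h4 (two_le_ne he) (two_le_ne he')]
      simp [haa]
  · intro h
    exact absurd (Finset.mem_univ _) h

theorem C5_cons {a e : Fin 5} (s : Fin 2) (he : 2 ≤ e) (ha : a ≠ 0) (q : SO) :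
    C5 e s (Fin.cons q (tup4 a)) = if q = (e, s) then (eta5 : ℂ) * co5 e a else 0 := by
  rw [C5_eq]
  simp only [Pi.smul_apply, Finset.sum_apply, smul_eq_mul]
  rw [Finset.sum_eq_single a]
  · by_cases hc : co5 e a = 0
    · simp [hc]
    · obtain ⟨h3, h4⟩ := co5_ne he hc
      rw [S5_cons s ha ha h4 (two_le_ne he)]
      simp
  · intro a' _ haa
    by_cases hc : co5 e a' = 0
    · simp [hc]
    · obtain ⟨h3, h4⟩ := co5_ne he hc
      rw [S5_cons s ha h3 h4 (two_le_ne he)]
      simp [haa]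
  · intro h
    exact absurd (Finset.mem_univ _) h

theorem C4_tup {a : Fin 5} (ha : co4 a ≠ 0) : C4 (tup4 a) = (eta4 : ℂ) * co4 a := by
  have h1 := co4_ne ha
  rw [C4_eq]
  simp only [Pi.smul_apply, Finset.sum_apply, smul_eq_mul]
  rw [Finset.sum_eq_single a]
  · rw [S4_tup h1 h1]
    simp
  · intro a' _ haa
    by_cases hc : co4 a' = 0
    · simp [hc]
    · rw [S4_tup h1 (co4_ne hc)]
      simp [haa]
  · intro h
    exact absurd (Finset.mem_univ _) h

/-! ### sums over the tensor `b5`, `b4` -/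

theorem sum_b5 (e : Fin 5) (s : Fin 2) (F : (Fin 5 → SO) → ℂ) :
    ∑ K, conj (b5 e s K) * F K = (eta5 : ℂ) * ∑ a, (co5 e a : ℂ) * F (tup5 a e s) := by
  change tin (b5 e s) F = _
  rw [b5, tin_smul_left, tin_sum_left]
  simp only [tin_smul_left, tin_ind, Complex.conj_ofReal]

theorem sum_b4 (F : (Fin 4 → SO) → ℂ) :
    ∑ K, conj (b4 K) * F K = (eta4 : ℂ) * ∑ a, (co4 a : ℂ) * F (tup4 a) := by
  change tin b4 F = _
  rw [b4, tin_smul_left, tin_sum_left]
  simp only [tin_smul_left, tin_ind, Complex.conj_ofReal]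

theorem sum_co5 (e : Fin 5) (f : Fin 5 → ℝ) :
    ∑ a, co5 e a ^ 2 * f a = f 1 + t5 ^ 2 * ∑ a : Fin 5, if 2 ≤ a ∧ a ≠ e then f a else 0 := by
  simp only [Fin.sum_univ_five, co5]
  simp only [show ¬ ((0 : Fin 5) = 1) by decide, show ¬ ((2 : Fin 5) ≤ 0) by decide,
      show ¬ ((2 : Fin 5) ≤ 1) by decide, show ¬ ((2 : Fin 5) = 1) by decide,
      show ¬ ((3 : Fin 5) = 1) by decide, show ¬ ((4 : Fin 5) = 1) by decide, if_false, if_true,
      false_and]
  split_ifs <;> ring

theorem sum_co5_sq {e : Fin 5} (he : 2 ≤ e) : ∑ a, co5 e a ^ 2 = 1 + 2 * t5 ^ 2 := by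
  have h := sum_co5 e (fun _ => 1)
  simp only [mul_one] at h
  rw [h]
  fin_cases e
  · exact absurd he (by decide)
  · exact absurd he (by decide)
  all_goals
    simp only [Fin.sum_univ_five]
    simp
    ring

theorem sum_co4_sq : ∑ a, co4 a ^ 2 = 1 + 3 * t4 ^ 2 := by
  simp only [Fin.sum_univ_five, co4]
  simp only [show ¬ ((0 : Fin 5) = 1) by decide, show ¬ ((2 : Fin 5) ≤ 0) by decide,
      show ¬ ((2 : Fin 5) ≤ 1) by decide, show ¬ ((2 : Fin 5) = 1) by decide,
      show ¬ ((3 : Fin 5) = 1) by decide, show ¬ ((4 : Fin 5) = 1) by decide, if_false, if_true,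
      show (2 : Fin 5) ≤ 2 by decide, show (2 : Fin 5) ≤ 3 by decide,
      show (2 : Fin 5) ≤ 4 by decide]
  ring

theorem eta5_sq : 120 * eta5 ^ 2 * (1 + 2 * t5 ^ 2) = 1 := by
  unfold eta5
  rw [div_pow, one_pow, Real.sq_sqrt (by positivity)]
  field_simp

theorem eta4_sq : 24 * eta4 ^ 2 * (1 + 3 * t4 ^ 2) = 1 := by
  unfold eta4
  rw [div_pow, one_pow, Real.sq_sqrt (by positivity)]
  field_simp

theorem eta5_pos : 0 < eta5 := by unfold eta5; positivity

theorem eta4_pos : 0 < eta4 := by unfold eta4; positivity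

/-! ### norms -/

theorem tin_C5 {e e' : Fin 5} {s s' : Fin 2} (he : 2 ≤ e) (he' : 2 ≤ e') :
    tin (C5 e s) (C5 e' s') = if e' = e ∧ s' = s then 1 else 0 := by
  rw [C5_asym e s, tin_asym_anti _ (anti_C5 e' s')]
  unfold tin
  rw [sum_b5]
  have h : ∀ a, (co5 e a : ℂ) * C5 e' s' (tup5 a e s) =
      if e' = e ∧ s' = s then (eta5 : ℂ) * co5 e a ^ 2 else 0 := by
    intro a
    by_cases ha : co5 e a = 0
    · simp [ha]
    · rw [C5_tup he he' ha]
      split_ifs
      · ring
      · simp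
  simp only [h]
  split_ifs with h2
  · rw [← Finset.mul_sum]
    have h3 : ∑ a, (co5 e a : ℂ) ^ 2 = ((1 + 2 * t5 ^ 2 : ℝ) : ℂ) := by
      rw [← sum_co5_sq he]
      push_cast
      rfl
    rw [h3]
    have h4 := eta5_sq
    rw [← Complex.ofReal_inj] at h4
    rw [show ((5 : ℕ).factorial : ℂ) = 120 by norm_num [Nat.factorial]]
    push_cast at h4 ⊢
    linear_combination h4
  · simp

theorem nsq_C5 {e : Fin 5} (he : 2 ≤ e) (s : Fin 2) : nsq (C5 e s) = 1 := by
  have h := tin_C5 (s := s) (s' := s) he he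
  rw [tin_self, if_pos ⟨rfl, rfl⟩] at h
  exact_mod_cast h

theorem tin_C4 : tin C4 C4 = 1 := by
  conv_lhs => rw [C4_asym]
  rw [← C4_asym, C4_asym, tin_asym_anti _ (anti_asym _), ← C4_asym]
  unfold tin
  rw [sum_b4]
  have h : ∀ a, (co4 a : ℂ) * C4 (tup4 a) = (eta4 : ℂ) * co4 a ^ 2 := by
    intro a
    by_cases ha : co4 a = 0
    · simp [ha]
    · rw [C4_tup ha]
      ring
  simp only [h]
  rw [← Finset.mul_sum]
  have h3 : ∑ a, (co4 a : ℂ) ^ 2 = ((1 + 3 * t4 ^ 2 : ℝ) : ℂ) := by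
    rw [← sum_co4_sq]
    push_cast
    rfl
  rw [h3]
  have h4 := eta4_sq
  rw [← Complex.ofReal_inj] at h4
  rw [show ((4 : ℕ).factorial : ℂ) = 24 by norm_num [Nat.factorial]]
  push_cast at h4 ⊢
  linear_combination h4

theorem nsq_C4 : nsq C4 = 1 := by
  have h := tin_C4
  rw [tin_self] at h
  exact_mod_cast h

/-! ### the Dyson tensor -/

/-- overlap of the ion and the atom. -/
def kap : ℝ := 24 * eta4 * eta5 * (1 + 2 * t4 * t5)

theorem kap_pos : 0 < kap := by
  have h1 := eta5_pos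
  have h2 := eta4_pos
  have h3 : 0 < t4 * t5 := mul_pos_of_neg_of_neg t4_neg t5_neg
  have h4 : 0 < 1 + 2 * t4 * t5 := by nlinarith
  unfold kap
  positivity

theorem sum_co45 {e : Fin 5} (he : 2 ≤ e) : ∑ a, co4 a * co5 e a = 1 + 2 * t4 * t5 := by
  fin_cases e
  · exact absurd he (by decide)
  · exact absurd he (by decide)
  all_goals
    simp only [Fin.sum_univ_five, co4, co5]
    simp
    ring

/-- contraction of the ion with the atom. -/
theorem contr_C4_C5 {e : Fin 5} (he : 2 ≤ e) (s : Fin 2) (p : SO) :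
    ∑ J : Fin 4 → SO, conj (C4 J) * C5 e s (Fin.cons p J) = if p = (e, s) then (kap : ℂ) else 0 := by
  rw [C4_asym, contr_asym _ (anti_C5 e s), sum_b4]
  have h : ∀ a, (co4 a : ℂ) * C5 e s (Fin.cons p (tup4 a)) =
      if p = (e, s) then (eta5 : ℂ) * (co4 a * co5 e a : ℝ) else 0 := by
    intro a
    by_cases ha : co4 a = 0
    · simp [ha]
    · rw [C5_cons s he (co4_ne ha)]
      split_ifs
      · push_cast; ring
      · simp
  simp only [h]
  split_ifs
  · rw [← Finset.mul_sum, ← Complex.ofReal_sum, sum_co45 he, kap]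
    rw [show ((4 : ℕ).factorial : ℂ) = 24 by norm_num [Nat.factorial]]
    push_cast
    ring
  · simp

/-! ### the one-body density matrix -/

/-- occupation numbers (summed over the `5` electrons) of `C5 e s`. -/
def occ5 (e : Fin 5) (s : Fin 2) (p : SO) : ℝ :=
  120 * eta5 ^ 2 * ∑ a, co5 e a ^ 2 * ∑ i, if tup5 a e s i = p then 1 else 0

theorem dm_C5 {e : Fin 5} (he : 2 ≤ e) (s : Fin 2) (p q : SO) :
    5 * ∑ J : Fin 4 → SO, conj (C5 e s (Fin.cons p J)) * C5 e s (Fin.cons q J) =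
      if q = p then (occ5 e s p : ℂ) else 0 := by
  have h0 : ∑ J : Fin 4 → SO, conj (C5 e s (Fin.cons p J)) * C5 e s (Fin.cons q J) =
      ∑ J : Fin 4 → SO, conj (asym (b5 e s) (Fin.cons p J)) * C5 e s (Fin.cons q J) := by
    rw [← C5_asym]
  rw [h0, dm_asym _ (anti_C5 e s), sum_b5]
  have h : ∀ a, (co5 e a : ℂ) * (∑ i, if tup5 a e s i = p then
      C5 e s (Function.update (tup5 a e s) i q) else 0) =
      if q = p then (eta5 : ℂ) * ((co5 e a ^ 2 * ∑ i, if tup5 a e s i = p then 1 else 0 : ℝ) : ℂ)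
      else 0 := by
    intro a
    by_cases ha : co5 e a = 0
    · simp [ha]
    · simp only [C5_update s he ha]
      have h2 : ∀ i, (if tup5 a e s i = p then
          (if q = tup5 a e s i then (eta5 : ℂ) * co5 e a else 0) else 0) =
          if q = p then (eta5 : ℂ) * co5 e a * (if tup5 a e s i = p then 1 else 0) else 0 := by
        intro i
        by_cases h3 : tup5 a e s i = p
        · subst h3
          simp
        · simp [h3]
      simp only [h2]
      split_ifs with h4
      · rw [← Finset.mul_sum]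
        have h5 : ((∑ i, if tup5 a e s i = p then (1 : ℝ) else 0 : ℝ) : ℂ) =
            ∑ i, if tup5 a e s i = p then (1 : ℂ) else 0 := by
          rw [Complex.ofReal_sum]
          refine Finset.sum_congr rfl fun i _ => ?_
          split_ifs <;> simp
        rw [Complex.ofReal_mul, h5]
        push_cast
        ring
      · simp
  simp only [h]
  split_ifs
  · rw [← Finset.mul_sum, ← Complex.ofReal_sum, occ5]
    rw [show ((4 : ℕ).factorial : ℂ) = 24 by norm_num [Nat.factorial]]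
    push_cast
    ring
  · simp

/-- the density of `C5 e s` in terms of the squares of the orbitals. -/
theorem sum_occ5 {e : Fin 5} (he : 2 ≤ e) (s : Fin 2) (f : Fin 5 → ℝ) :
    ∑ p : SO, occ5 e s p * f p.1 =
      2 * f 0 + f e + 2 / (1 + 2 * t5 ^ 2) *
        (f 1 + t5 ^ 2 * ∑ a : Fin 5, if 2 ≤ a ∧ a ≠ e then f a else 0) := by
  have h1 : ∑ p : SO, occ5 e s p * f p.1 =
      120 * eta5 ^ 2 * ∑ a, co5 e a ^ 2 * ∑ i, f (tup5 a e s i).1 := by
    unfold occ5
    simp only [mul_assoc, Finset.sum_mul, ← Finset.mul_sum]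
    congr 2
    rw [Finset.sum_comm]
    refine Finset.sum_congr rfl fun a _ => ?_
    rw [← Finset.mul_sum]
    congr 1
    rw [Finset.sum_comm]
    refine Finset.sum_congr rfl fun i _ => ?_
    rw [Finset.sum_eq_single (tup5 a e s i)]
    · simp
    · intro p _ hp
      rw [if_neg hp.symm, zero_mul]
    · intro h
      exact absurd (Finset.mem_univ _) h
  have h2 : ∀ a, ∑ i, f (tup5 a e s i).1 = 2 * f 0 + 2 * f a + f e := by
    intro a
    simp [Fin.sum_univ_five, tup5]
    ring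
  simp only [h2] at h1
  rw [h1, sum_co5 e]
  have h5 : ∀ g : Fin 5 → ℝ, (∑ a : Fin 5, if 2 ≤ a ∧ a ≠ e then 2 * f 0 + 2 * g a + f e else 0) =
      2 * (2 * f 0 + f e) + 2 * ∑ a : Fin 5, if 2 ≤ a ∧ a ≠ e then g a else 0 := by
    intro g
    fin_cases e
    · exact absurd he (by decide)
    · exact absurd he (by decide)
    all_goals
      simp only [Fin.sum_univ_five]
      simp
      ring
  rw [h5]
  have h6 := eta5_sq
  have h7 : 120 * eta5 ^ 2 = 1 / (1 + 2 * t5 ^ 2) := by
    rw [eq_div_iff (by positivity)]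
    exact h6
  rw [h7]
  field_simp
  ring

/-! ### core -/

theorem core_of {N : ℕ} {c : Ten N} (h : ∀ J, c J ≠ 0 → ∃ I : Fin N → SO,
    (∃ i, I i = ((0 : Fin 5), (0 : Fin 2))) ∧ (∃ i, I i = ((0 : Fin 5), (1 : Fin 2))) ∧
      asym (ind I) J ≠ 0) : Core c := by
  intro J hJ
  obtain ⟨I, ⟨i, hi⟩, ⟨j, hj⟩, hI⟩ := h J hJ
  have hm := mem_of_asym_ind_ne hI
  exact ⟨by rw [← hi]; exact hm i, by rw [← hj]; exact hm j⟩

theorem core_C5 (e : Fin 5) (s : Fin 2) : Core (C5 e s) := by
  apply core_of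
  intro J hJ
  rw [C5_eq] at hJ
  simp only [Pi.smul_apply, Finset.sum_apply, smul_eq_mul] at hJ
  obtain ⟨a, -, ha⟩ := Finset.exists_ne_zero_of_sum_ne_zero (right_ne_zero_of_mul hJ)
  exact ⟨tup5 a e s, ⟨0, rfl⟩, ⟨1, rfl⟩, right_ne_zero_of_mul ha⟩

theorem core_C4 : Core C4 := by
  apply core_of
  intro J hJ
  rw [C4_eq] at hJ
  simp only [Pi.smul_apply, Finset.sum_apply, smul_eq_mul] at hJ
  obtain ⟨a, -, ha⟩ := Finset.exists_ne_zero_of_sum_ne_zero (right_ne_zero_of_mul hJ)
  exact ⟨tup4 a, ⟨0, rfl⟩, ⟨1, rfl⟩, right_ne_zero_of_mul ha⟩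

/-! ### the occupation numbers -/

/-- occupation of `2s`. -/
def al5 : ℝ := 2 / (1 + 2 * t5 ^ 2)

/-- occupation of `2p₀` and `2p₁`. -/
def be5 : ℝ := al5 * t5 ^ 2

theorem t5_sq_pos : 0 < t5 ^ 2 := by
  rw [sq]
  exact mul_pos_of_neg_of_neg t5_neg t5_neg

theorem al5_pos : 0 < al5 := by unfold al5; positivity

theorem al5_lt : al5 < 2 := by
  unfold al5
  rw [div_lt_iff₀ (by positivity)]
  nlinarith [t5_sq_pos]

theorem be5_pos : 0 < be5 := mul_pos al5_pos t5_sq_pos

theorem al5_be5 : al5 + 2 * be5 = 2 := by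
  unfold be5 al5
  field_simp

theorem be5_lt : be5 < 2 := by
  have := al5_be5
  have := al5_pos
  have := be5_pos
  linarith

/-- the density of `C5 4 s`. -/
theorem sum_occ5_four (s : Fin 2) (f : Fin 5 → ℝ) :
    ∑ p : SO, occ5 4 s p * f p.1 = 2 * f 0 + al5 * f 1 + be5 * (f 2 + f 3) + f 4 := by
  rw [sum_occ5 (by decide)]
  have h : (∑ a : Fin 5, if 2 ≤ a ∧ a ≠ 4 then f a else 0) = f 2 + f 3 := by
    simp only [Fin.sum_univ_five]
    simp
  rw [h]
  unfold be5 al5
  ring

end

end Vale.Agent.P363.H761
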