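import Vale.Agent.P363.R2.h518.HypInst
import Vale.Agent.P363.R.B4.Main
import Vale.Agent.P363.H95.DysDens
import Vale.Agent.P363.H868.Sym
import Vale.Agent.P363.H761.TenC

/-!
Instances for the assembly of B4: the facts on the Dyson amplitude, the Dyson amplitude and the
density of the unperturbed states.
-/

namespace Vale.Agent.P363.H761

open MeasureTheory Filter Topology
open Vale.Agent.P363.Stmt Vale.Agent.P363.R.Sob Vale.Agent.P363.H382 Vale.Agent.P363.R.Top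
open Vale.Agent.P363.R.B4 Vale.Agent.P363.H95 Vale.Agent.P363.H979.CI Vale.Agent.P363.H518
open Vale.Agent.P363.H868 (dy dyson_eq_dy memLp_dyson integral_dyson_sub_le dyson_congr
  ae_memLp_rest_all toFS_eq_sum_iff ofFS_toFS_ae)
open scoped ContDiff ENNReal ComplexConjugate

set_option linter.unusedSectionVars false

noncomputable section

variable {n : ℕ}

/-- slices of functions that agree almost everywhere -/
theorem ae_slice_eq {f f' : Conf (n + 1) → ℂ} (h : f =ᵐ[volume] f') :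
    ∀ᵐ x : R3, ∀ᵐ y : Conf n, f (Fin.cons x y) = f' (Fin.cons x y) := by
  have h2 : ∀ᵐ p : R3 × Conf n, f (Fin.cons p.1 p.2) = f' (Fin.cons p.1 p.2) :=
    (consE_mp (n := n)).quasiMeasurePreserving.ae h
  exact Measure.ae_ae_of_ae_prod h2

/-- the density depends only on the a.e. classes. -/
theorem density_congr {Ψ Ψ' : ElectronState (n + 1)} (h : ∀ s, Ψ.amp s =ᵐ[volume] Ψ'.amp s) :
    density Ψ =ᵐ[volume] density Ψ' := by
  have h1 : ∀ᵐ x : R3, ∀ s, ∀ᵐ y : Conf n, Ψ.amp s (Fin.cons x y) = Ψ'.amp s (Fin.cons x y) := by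
    rw [ae_all_iff]
    exact fun s => ae_slice_eq (h s)
  filter_upwards [h1] with x hx
  have e : ∀ Φ : ElectronState (n + 1), density Φ x =
      ((n : ℝ) + 1) * ∑ s, ∫ y : Conf n, ‖Φ.amp s (Fin.cons x y)‖ ^ 2 := fun Φ => rfl
  rw [e, e]
  congr 1
  refine Finset.sum_congr rfl fun s _ => ?_
  refine integral_congr_ae ?_
  filter_upwards [hx s] with y hy
  rw [hy]

/-- linearity of the Dyson amplitude in the second argument. -/
theorem dyson_sum {ι : Type*} [Fintype ι] (Φ : ElectronState n) (a : ι → ℂ)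
    (Ψ : ElectronState (n + 1)) (χ : ι → ElectronState (n + 1))
    (h : ∀ s, Ψ.amp s =ᵐ[volume] fun x => ∑ i, a i * (χ i).amp s x) (σ : Fin 2) :
    dyson Φ Ψ σ =ᵐ[volume] fun x => ∑ i, a i * dyson Φ (χ i) σ x := by
  have h1 : ∀ᵐ x : R3, ∀ s, ∀ᵐ y : Conf n, Ψ.amp s (Fin.cons x y) =
      ∑ i, a i * (χ i).amp s (Fin.cons x y) := by
    rw [ae_all_iff]
    exact fun s => ae_slice_eq (h s)
  have h2 : ∀ᵐ x : R3, ∀ i, ∀ s, MemLp (fun y : Conf n => (χ i).amp s (Fin.cons x y)) 2 volume := by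
    rw [ae_all_iff]
    exact fun i => ae_memLp_rest_all (amp_L2 (χ i))
  filter_upwards [h1, h2] with x hx hx2
  unfold dyson
  simp only [Finset.mul_sum]
  rw [Finset.sum_comm]
  refine Finset.sum_congr rfl fun s _ => ?_
  have e1 : ∫ y : Conf n, conj (Φ.amp s y) * Ψ.amp (Fin.cons σ s) (Fin.cons x y) =
      ∫ y : Conf n, ∑ i, a i * (conj (Φ.amp s y) * (χ i).amp (Fin.cons σ s) (Fin.cons x y)) := by
    refine integral_congr_ae ?_
    filter_upwards [hx (Fin.cons σ s)] with y hy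
    rw [hy, Finset.mul_sum]
    exact Finset.sum_congr rfl fun i _ => by ring
  rw [e1, integral_finsetSum]
  · refine Finset.sum_congr rfl fun i _ => ?_
    rw [integral_const_mul]
  · intro i _
    exact (integrable_coef (amp_L2 Φ s) (hx2 i (Fin.cons σ s))).const_mul _

/-- the hypotheses on the Dyson amplitude in the assembly of B4. -/
theorem dysHyp : DysHyp where
  mem Φ Ψ σ := memLp_dyson Φ Ψ σ
  lip Φ Φ' Ψ Ψ' σ := integral_dyson_sub_le Φ Φ' Ψ Ψ' σ
  congr Φ Φ' Ψ Ψ' σ h h' := dyson_congr h h' σ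
  sum Φ {ι} _ a y σ := by
    refine dyson_sum Φ a _ (fun i => ofFS (y i)) (fun s => ?_) σ
    refine (toFS_eq_sum_iff (ofFS (∑ i, a i • y i)) a (fun i => ofFS (y i))).1 ?_ s
    simp only [toFS_ofFS]

/-- the Dyson amplitude of the unperturbed states. -/
theorem hdys : ∀ᵐ x, dyson (ofFS (e4 ())) (ofFS (e5 (2, 0))) 0 x = ((kap * orb 4 x : ℝ) : ℂ) := by
  have h1 := dyson_congr (ofFS_toFS_ae (stT c4)) (ofFS_toFS_ae (stT (c5 (2, 0)))) 0
  filter_upwards [h1] with x hx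
  have e : dyson (ofFS (e4 ())) (ofFS (e5 (2, 0))) 0 x =
      dyson (ofFS (toFS (stT c4))) (ofFS (toFS (stT (c5 (2, 0))))) 0 x := rfl
  rw [e, hx]
  have h2 := dyson_ofTen_ofTen (H := oneBody) orth_corb (c := (c5 (2, 0)).1)
    (hc := (c5 (2, 0)).2.1) (d := c4.1) (hd := c4.2.1) 0 x
  have e2 : dyson (stT c4) (stT (c5 (2, 0))) 0 x = _ := h2
  rw [e2]
  have h3 : ∀ p : Fin 5, ∑ J : Fin 4 → SO, conj (c4.1 J) * (c5 (2, 0)).1 (Fin.cons (p, 0) J) =
      if p = 4 then (kap : ℂ) else 0 := by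
    intro p
    have h4 := contr_C4_C5 (e := 4) (by decide) 0 (p, 0)
    have h5 : (((p, 0) : SO) = (4, 0)) ↔ p = 4 := by simp
    simp only [h5] at h4
    exact h4
  simp only [h3]
  simp [corb]

/-- the density of the unperturbed state of the atom. -/
theorem hden : ∀ᵐ x, density (ofFS (e5 (2, 0))) x = n0 al5 be5 x := by
  have h1 := density_congr (ofFS_toFS_ae (stT (c5 (2, 0))))
  filter_upwards [h1] with x hx
  have e : density (ofFS (e5 (2, 0))) x = density (ofFS (toFS (stT (c5 (2, 0))))) x := rfl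
  rw [e, hx]
  have h2 := density_ofTen' (H := oneBody) (c := (c5 (2, 0)).1) (hc := (c5 (2, 0)).2.1)
    orth_corb x
  have e2 : ((density (stT (c5 (2, 0))) x : ℝ) : ℂ) = _ := h2
  rw [← Complex.ofReal_inj, e2]
  have h3 : ∀ (σ : Fin 2) (p q : Fin 5), ((4 : ℕ) + 1 : ℂ) *
      ∑ J : Fin 4 → SO, conj ((c5 (2, 0)).1 (Fin.cons (p, σ) J)) *
        (c5 (2, 0)).1 (Fin.cons (q, σ) J) = if q = p then (occ5 4 0 (p, σ) : ℂ) else 0 := by
    intro σ p q
    have h4 := dm_C5 (e := 4) (by decide) 0 (p, σ) (q, σ)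
    have h5 : (((q, σ) : SO) = (p, σ)) ↔ q = p := by simp
    simp only [h5] at h4
    have h6 : ((4 : ℕ) + 1 : ℂ) = 5 := by norm_num
    rw [h6]
    exact h4
  have h7 : ((4 : ℕ) + 1 : ℂ) * ∑ σ : Fin 2, ∑ p, ∑ q,
      (∑ J : Fin 4 → SO, conj ((c5 (2, 0)).1 (Fin.cons (p, σ) J)) *
        (c5 (2, 0)).1 (Fin.cons (q, σ) J)) * (conj (corb p x) * corb q x) =
      ∑ σ : Fin 2, ∑ p, (occ5 4 0 (p, σ) : ℂ) * ((orb p x ^ 2 : ℝ) : ℂ) := by
    rw [Finset.mul_sum]
    refine Finset.sum_congr rfl fun σ _ => ?_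
    rw [Finset.mul_sum]
    refine Finset.sum_congr rfl fun p _ => ?_
    rw [Finset.mul_sum]
    simp only [← mul_assoc]
    simp only [h3]
    rw [Finset.sum_eq_single p]
    · rw [if_pos rfl]
      simp only [corb, Complex.conj_ofReal]
      push_cast
      ring
    · intro q _ hq
      rw [if_neg hq]
      simp
    · intro h
      exact absurd (Finset.mem_univ _) h
  rw [h7]
  have h8 := sum_occ5_four 0 (fun p => orb p x ^ 2)
  rw [Fintype.sum_prod_type, Finset.sum_comm] at h8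
  have h9 : (∑ σ : Fin 2, ∑ p, (occ5 4 0 (p, σ) : ℂ) * ((orb p x ^ 2 : ℝ) : ℂ)) =
      ((∑ σ : Fin 2, ∑ p, occ5 4 0 (p, σ) * orb p x ^ 2 : ℝ) : ℂ) := by
    push_cast
    rfl
  rw [h9, h8]
  unfold n0
  push_cast
  ring

/-- name used in the assembly. -/
theorem dens5 : ∀ᵐ x, density (ofFS (e5 (2, 0))) x = n0 al5 be5 x := hden

/-- name used in the assembly. -/
theorem dys45 : ∀ᵐ x, dyson (ofFS (e4 ())) (ofFS (e5 (2, 0))) 0 x = ((kap * orb 4 x : ℝ) : ℂ) :=
  hdys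

end

end Vale.Agent.P363.H761
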