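import Vale.Agent.P363.H979.CI.Defs
import Mathlib.GroupTheory.Perm.Fin
import Mathlib.Logic.Equiv.Fin.Basic

/-!
Finite tensor computations for the ground tensors `C5`, `C4` of the atom and the ion:
antisymmetry, norms, contraction (Dyson tensor), one-body density matrix.
-/

namespace Vale.Agent.P363.H761

open Vale.Agent.P363.H979.CI
open scoped ComplexConjugate

noncomputable section

variable {N n : ℕ}

/-! ### generalities on `asym` -/

theorem anti_asym (b : Ten N) : Anti (asym b) := by
  intro τ J
  unfold asym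
  rw [Finset.mul_sum, ← Equiv.sum_comp (Equiv.mulLeft τ⁻¹)]
  refine Finset.sum_congr rfl fun σ _ => ?_
  have h1 : (J ∘ τ) ∘ ⇑((Equiv.mulLeft τ⁻¹) σ) = J ∘ σ := by
    funext i
    simp
  rw [h1]
  simp only [Equiv.coe_mulLeft, Equiv.Perm.sign_mul, Equiv.Perm.sign_inv, Units.val_mul,
    Int.cast_mul]
  ring

theorem anti_add {c d : Ten N} (hc : Anti c) (hd : Anti d) : Anti (c + d) := by
  intro σ J
  rw [Pi.add_apply, Pi.add_apply, hc, hd, mul_add]

theorem anti_smul {c : Ten N} (a : ℂ) (hc : Anti c) : Anti (a • c) := by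
  intro σ J
  rw [Pi.smul_apply, Pi.smul_apply, hc, smul_eq_mul, smul_eq_mul]
  ring

theorem asym_add (b d : Ten N) : asym (b + d) = asym b + asym d := by
  funext J
  simp only [asym, Pi.add_apply, mul_add, Finset.sum_add_distrib]

theorem asym_smul (a : ℂ) (b : Ten N) : asym (a • b) = a • asym b := by
  funext J
  simp only [asym, Pi.smul_apply, smul_eq_mul, Finset.mul_sum]
  exact Finset.sum_congr rfl fun σ _ => by ring

theorem asym_sum {ι : Type*} (s : Finset ι) (b : ι → Ten N) :
    asym (∑ i ∈ s, b i) = ∑ i ∈ s, asym (b i) := by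
  funext J
  simp only [asym, Finset.sum_apply, Finset.mul_sum]
  exact Finset.sum_comm

theorem sum_comp_perm {M : Type*} [AddCommMonoid M] (σ : Equiv.Perm (Fin N))
    (f : (Fin N → SO) → M) : ∑ J, f (J ∘ σ) = ∑ J, f J :=
  Equiv.sum_comp (Equiv.arrowCongr σ (Equiv.refl SO)).symm f

/-- `asym` is symmetric for the inner product. -/
theorem tin_asym_left (b d : Ten N) : tin (asym b) d = tin b (asym d) := by
  unfold tin asym
  simp only [map_sum, Finset.sum_mul, Finset.mul_sum]
  rw [Finset.sum_comm]
  conv_rhs => rw [Finset.sum_comm, ← Equiv.sum_comp (Equiv.inv (Equiv.Perm (Fin N)))]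
  refine Finset.sum_congr rfl fun σ _ => ?_
  rw [← sum_comp_perm σ⁻¹]
  refine Finset.sum_congr rfl fun J _ => ?_
  have h1 : (J ∘ ⇑σ⁻¹) ∘ ⇑σ = J := by
    funext i
    simp
  rw [h1]
  simp only [Equiv.inv_apply, Equiv.Perm.sign_inv, map_mul, map_intCast]
  ring

theorem asym_of_anti {c : Ten N} (hc : Anti c) : asym c = (N.factorial : ℂ) • c := by
  funext J
  unfold asym
  have h : ∀ σ : Equiv.Perm (Fin N), ((Equiv.Perm.sign σ : ℤ) : ℂ) * c (J ∘ σ) = c J := by
    intro σ
    rw [hc, ← mul_assoc, ← Int.cast_mul, Int.units_coe_mul_self]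
    simp
  simp only [h, Finset.sum_const, Finset.card_univ, Fintype.card_perm, Fintype.card_fin,
    Pi.smul_apply, smul_eq_mul, nsmul_eq_mul]

theorem tin_smul_right (a : ℂ) (b d : Ten N) : tin b (a • d) = a * tin b d := by
  unfold tin
  rw [Finset.mul_sum]
  exact Finset.sum_congr rfl fun J _ => by rw [Pi.smul_apply, smul_eq_mul]; ring

theorem tin_asym_anti (b : Ten N) {c : Ten N} (hc : Anti c) :
    tin (asym b) c = N.factorial * tin b c := by
  rw [tin_asym_left, asym_of_anti hc, tin_smul_right]

theorem tin_self (c : Ten N) : tin c c = (nsq c : ℂ) := by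
  unfold tin nsq
  push_cast
  refine Finset.sum_congr rfl fun J _ => ?_
  rw [Complex.conj_mul']

theorem tin_ind (I : Fin N → SO) (c : Ten N) : tin (ind I) c = c I := by
  unfold tin ind
  rw [Finset.sum_eq_single I]
  · simp
  · intro J _ hJ
    simp [hJ]
  · intro h
    exact absurd (Finset.mem_univ _) h

theorem tin_add_left (b b' d : Ten N) : tin (b + b') d = tin b d + tin b' d := by
  unfold tin
  rw [← Finset.sum_add_distrib]
  exact Finset.sum_congr rfl fun J _ => by rw [Pi.add_apply, map_add]; ring

theorem tin_smul_left (a : ℂ) (b d : Ten N) : tin (a • b) d = conj a * tin b d := by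
  unfold tin
  rw [Finset.mul_sum]
  exact Finset.sum_congr rfl fun J _ => by rw [Pi.smul_apply, smul_eq_mul, map_mul]; ring

theorem tin_sum_left {ι : Type*} (s : Finset ι) (b : ι → Ten N) (d : Ten N) :
    tin (∑ i ∈ s, b i) d = ∑ i ∈ s, tin (b i) d := by
  unfold tin
  simp only [Finset.sum_apply, map_sum, Finset.sum_mul]
  exact Finset.sum_comm

theorem tin_sum_right {ι : Type*} (s : Finset ι) (b : ι → Ten N) (d : Ten N) :
    tin d (∑ i ∈ s, b i) = ∑ i ∈ s, tin d (b i) := by
  unfold tin
  simp only [Finset.sum_apply, Finset.mul_sum]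
  exact Finset.sum_comm

/-! ### values of `asym (ind I)` -/

theorem exists_of_asym_ind_ne {I J : Fin N → SO} (h : asym (ind I) J ≠ 0) :
    ∃ σ : Equiv.Perm (Fin N), J ∘ σ = I := by
  by_contra hcon
  push Not at hcon
  apply h
  unfold asym ind
  refine Finset.sum_eq_zero fun σ _ => ?_
  rw [if_neg (hcon σ), mul_zero]

theorem mem_of_asym_ind_ne {I J : Fin N → SO} (h : asym (ind I) J ≠ 0) (k : Fin N) :
    ∃ l, J l = I k := by
  obtain ⟨σ, hσ⟩ := exists_of_asym_ind_ne h
  exact ⟨σ k, congrFun hσ k⟩

theorem mem_of_asym_ind_ne' {I J : Fin N → SO} (h : asym (ind I) J ≠ 0) (k : Fin N) :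
    ∃ l, I l = J k := by
  obtain ⟨σ, hσ⟩ := exists_of_asym_ind_ne h
  exact ⟨σ.symm k, by rw [← hσ]; simp⟩

theorem asym_ind_self {I : Fin N → SO} (hI : Function.Injective I) : asym (ind I) I = 1 := by
  unfold asym ind
  rw [Finset.sum_eq_single (1 : Equiv.Perm (Fin N))]
  · simp
  · intro σ _ hσ
    rw [if_neg, mul_zero]
    intro h
    apply hσ
    ext i
    have := hI (congrFun h i)
    rw [this]
    rfl
  · intro h
    exact absurd (Finset.mem_univ _) h

theorem asym_ind_zero {I : Fin N → SO} {i j : Fin N} (hij : i ≠ j) (h : I i = I j) :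
    asym (ind I) = 0 := by
  have key : ∀ J, asym (ind I) J = - asym (ind I) J := by
    intro J
    unfold asym
    rw [← Finset.sum_neg_distrib, ← Equiv.sum_comp (Equiv.mulRight (Equiv.swap i j))]
    refine Finset.sum_congr rfl fun σ _ => ?_
    have h1 : ind I (J ∘ ⇑((Equiv.mulRight (Equiv.swap i j)) σ)) = ind I (J ∘ σ) := by
      unfold ind
      have h2 : J ∘ ⇑((Equiv.mulRight (Equiv.swap i j)) σ) = (J ∘ σ) ∘ Equiv.swap i j := by
        funext k; simp
      rw [h2]
      have h3 : I ∘ Equiv.swap i j = I := by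
        funext k
        by_cases hki : k = i
        · subst hki; simp [h]
        · by_cases hkj : k = j
          · subst hkj; simp [h]
          · simp [Equiv.swap_apply_of_ne_of_ne hki hkj]
      have h4 : ((J ∘ σ) ∘ Equiv.swap i j = I) ↔ (J ∘ σ = I) := by
        constructor
        · intro h5
          rw [← h3, ← h5]
          funext k; simp
        · intro h5
          rw [h5, h3]
      simp only [h4]
    rw [h1]
    simp [Equiv.Perm.sign_swap hij]
  funext J
  have := key J
  simp only [Pi.zero_apply]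
  linear_combination this / 2

/-! ### contractions of the first label -/

theorem sum_cons (f : (Fin (n + 1) → SO) → ℂ) :
    ∑ J, f J = ∑ p : SO, ∑ J : Fin n → SO, f (Fin.cons p J) := by
  rw [← Equiv.sum_comp (Fin.consEquiv fun _ => SO) f, Fintype.sum_prod_type]
  rfl

theorem sum_perm_zero (f : Fin (n + 1) → ℂ) :
    ∑ σ : Equiv.Perm (Fin (n + 1)), f (σ 0) = n.factorial * ∑ i, f i := by
  rw [← Equiv.sum_comp Equiv.Perm.decomposeFin.symm, Fintype.sum_prod_type, Finset.mul_sum]
  refine Finset.sum_congr rfl fun i _ => ?_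
  simp [Equiv.Perm.decomposeFin_symm_apply_zero, Fintype.card_perm]

theorem update_comp_perm (K : Fin (n + 1) → SO) (σ : Equiv.Perm (Fin (n + 1))) (q : SO) :
    Function.update (K ∘ σ) 0 q = Function.update K (σ 0) q ∘ σ := by
  funext i
  by_cases h : i = 0
  · subst h; simp
  · have : σ i ≠ σ 0 := fun h' => h (σ.injective h')
    simp [Function.update_of_ne h, Function.update_of_ne this]

/-- density matrix of an antisymmetrised tensor. -/
theorem dm_asym (b : Ten (n + 1)) {d : Ten (n + 1)} (hd : Anti d) (p q : SO) :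
    ∑ J : Fin n → SO, conj (asym b (Fin.cons p J)) * d (Fin.cons q J) =
      n.factorial * ∑ K : Fin (n + 1) → SO, conj (b K) *
        ∑ i, if K i = p then d (Function.update K i q) else 0 := by
  set D : Ten (n + 1) := fun J => if J 0 = p then d (Function.update J 0 q) else 0 with hD
  have h1 : ∑ J : Fin n → SO, conj (asym b (Fin.cons p J)) * d (Fin.cons q J) =
      tin (asym b) D := by
    unfold tin
    rw [sum_cons, Finset.sum_eq_single p]
    · refine Finset.sum_congr rfl fun J _ => ?_
      simp [hD]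
    · intro p' _ hp'
      refine Finset.sum_eq_zero fun J _ => ?_
      simp [hD, hp']
    · intro h
      exact absurd (Finset.mem_univ _) h
  rw [h1, tin_asym_left]
  unfold tin
  rw [Finset.mul_sum]
  refine Finset.sum_congr rfl fun K _ => ?_
  have h2 : asym D K = n.factorial * ∑ i, if K i = p then d (Function.update K i q) else 0 := by
    rw [← sum_perm_zero (fun i => if K i = p then d (Function.update K i q) else 0)]
    unfold asym
    refine Finset.sum_congr rfl fun σ _ => ?_
    simp only [hD, Function.comp_apply]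
    split_ifs with h
    · rw [update_comp_perm, hd, ← mul_assoc, ← Int.cast_mul, Int.units_coe_mul_self]
      simp
    · simp
  rw [h2]
  ring

/-- contraction with an antisymmetrised tensor. -/
theorem contr_asym (b : Ten n) {d : Ten (n + 1)} (hd : Anti d) (q : SO) :
    ∑ J : Fin n → SO, conj (asym b J) * d (Fin.cons q J) =
      n.factorial * ∑ K : Fin n → SO, conj (b K) * d (Fin.cons q K) := by
  have h : Anti (fun J : Fin n → SO => d (Fin.cons q J)) := by
    intro σ J
    have h1 : (Fin.cons q (J ∘ σ) : Fin (n + 1) → SO) =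
        Fin.cons q J ∘ (Equiv.Perm.decomposeFin.symm (0, σ)) := by
      funext i
      refine Fin.cases ?_ (fun j => ?_) i
      · simp
      · simp
    change d (Fin.cons q (J ∘ σ)) = _
    rw [h1, hd]
    congr 2
    simp [Equiv.Perm.decomposeFin.symm_sign]
  exact tin_asym_anti b h

end

end Vale.Agent.P363.H761
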