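import Vale.Agent.P363.H761.TenC

/-!
Action of one-body matrices on tensors; rotations, spin flip and spin phases on `C5`, `C4`.
-/

namespace Vale.Agent.P363.H761

open Vale.Agent.P363.H979.CI
open scoped ComplexConjugate

noncomputable section

variable {N : ℕ}

/-- action of a one-body matrix on tensors. -/
def act (T : SO → SO → ℂ) (c : Ten N) : Ten N := fun J => ∑ I, (∏ i, T (I i) (J i)) * c I

theorem act_add (T : SO → SO → ℂ) (c d : Ten N) : act T (c + d) = act T c + act T d := by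
  funext J
  simp only [act, Pi.add_apply, mul_add, Finset.sum_add_distrib]

theorem act_smul (T : SO → SO → ℂ) (a : ℂ) (c : Ten N) : act T (a • c) = a • act T c := by
  funext J
  simp only [act, Pi.smul_apply, smul_eq_mul, Finset.mul_sum]
  exact Finset.sum_congr rfl fun I _ => by ring

theorem act_sum (T : SO → SO → ℂ) {ι : Type*} (s : Finset ι) (c : ι → Ten N) :
    act T (∑ i ∈ s, c i) = ∑ i ∈ s, act T (c i) := by
  funext J
  simp only [act, Finset.sum_apply, Finset.mul_sum]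
  exact Finset.sum_comm

theorem act_asym (T : SO → SO → ℂ) (b : Ten N) : act T (asym b) = asym (act T b) := by
  funext J
  simp only [act, asym, Finset.mul_sum]
  rw [Finset.sum_comm]
  refine Finset.sum_congr rfl fun σ _ => ?_
  rw [← sum_comp_perm σ (fun I => ((Equiv.Perm.sign σ : ℤ) : ℂ) *
    ((∏ i, T (I i) ((J ∘ σ) i)) * b I))]
  refine Finset.sum_congr rfl fun I _ => ?_
  have h : ∏ i, T ((I ∘ σ) i) ((J ∘ σ) i) = ∏ i, T (I i) (J i) :=
    Equiv.prod_comp σ fun i => T (I i) (J i)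
  rw [h]
  ring

theorem act_ind (T : SO → SO → ℂ) (I : Fin N → SO) : act T (ind I) = fun J => ∏ i, T (I i) (J i) := by
  funext J
  unfold act ind
  rw [Finset.sum_eq_single I]
  · simp
  · intro K _ hK
    simp [hK]
  · intro h
    exact absurd (Finset.mem_univ _) h

/-- `C5` with the sum over all `2p` orbitals. -/
theorem C5_full {e : Fin 5} (he : 2 ≤ e) (s : Fin 2) :
    C5 e s = asym ((eta5 : ℂ) • (ind (tup5 1 e s) +
      (t5 : ℂ) • ∑ a ∈ ({2, 3, 4} : Finset (Fin 5)), ind (tup5 a e s))) := by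
  have h0 : asym (ind (tup5 e e s)) = 0 := by
    fin_cases s
    · exact asym_ind_zero (i := 2) (j := 4) (by decide) rfl
    · exact asym_ind_zero (i := 3) (j := 4) (by decide) rfl
  rw [C5_eq, asym_smul, asym_add, asym_smul, asym_sum]
  congr 1
  have h1 : ∀ a, (co5 e a : ℂ) • asym (ind (tup5 a e s)) =
      if a = 1 then asym (ind (tup5 a e s)) else
        if 2 ≤ a then (t5 : ℂ) • asym (ind (tup5 a e s)) else 0 := by
    intro a
    unfold co5
    by_cases h2 : a = 1
    · simp [h2]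
    · simp only [h2, if_false]
      by_cases h3 : 2 ≤ a
      · by_cases h4 : a = e
        · subst h4
          simp [h0]
        · simp [h3, h4]
      · simp [h3]
  simp only [h1, Fin.sum_univ_five]
  simp only [show ¬ ((0 : Fin 5) = 1) by decide, show ¬ ((2 : Fin 5) ≤ 0) by decide,
      show ¬ ((2 : Fin 5) = 1) by decide,
      show ¬ ((3 : Fin 5) = 1) by decide, show ¬ ((4 : Fin 5) = 1) by decide, if_false, if_true,
      show (2 : Fin 5) ≤ 2 by decide, show (2 : Fin 5) ≤ 3 by decide,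
      show (2 : Fin 5) ≤ 4 by decide]
  rw [Finset.sum_insert (by decide), Finset.sum_insert (by decide), Finset.sum_singleton]
  simp only [smul_add]
  abel

theorem C4_full : C4 = asym ((eta4 : ℂ) • (ind (tup4 1) +
      (t4 : ℂ) • ∑ a ∈ ({2, 3, 4} : Finset (Fin 5)), ind (tup4 a))) := by
  rw [C4_eq, asym_smul, asym_add, asym_smul, asym_sum]
  congr 1
  have h1 : ∀ a, (co4 a : ℂ) • asym (ind (tup4 a)) =
      if a = 1 then asym (ind (tup4 a)) else
        if 2 ≤ a then (t4 : ℂ) • asym (ind (tup4 a)) else 0 := by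
    intro a
    unfold co4
    by_cases h2 : a = 1
    · simp [h2]
    · simp only [h2, if_false]
      by_cases h3 : 2 ≤ a
      · simp [h3]
      · simp [h3]
  simp only [h1, Fin.sum_univ_five]
  simp only [show ¬ ((0 : Fin 5) = 1) by decide, show ¬ ((2 : Fin 5) ≤ 0) by decide,
      show ¬ ((2 : Fin 5) = 1) by decide,
      show ¬ ((3 : Fin 5) = 1) by decide, show ¬ ((4 : Fin 5) = 1) by decide, if_false, if_true,
      show (2 : Fin 5) ≤ 2 by decide, show (2 : Fin 5) ≤ 3 by decide,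
      show (2 : Fin 5) ≤ 4 by decide]
  rw [Finset.sum_insert (by decide), Finset.sum_insert (by decide), Finset.sum_singleton]
  simp only [smul_add]
  abel

/-- block matrices: identity on `1s`, `2s`, orthogonal on the `2p` orbitals. -/
structure Blk (R : Fin 5 → Fin 5 → ℝ) : Prop where
  r0 : ∀ j, R 0 j = if j = 0 then 1 else 0
  r1 : ∀ j, R 1 j = if j = 1 then 1 else 0
  col : ∀ b c, ∑ a ∈ ({2, 3, 4} : Finset (Fin 5)), R a b * R a c = if b = c ∧ 2 ≤ b then 1 else 0
  z0 : ∀ a, 2 ≤ a → R a 0 = 0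
  z1 : ∀ a, 2 ≤ a → R a 1 = 0

/-- action on the orbital labels. -/
def orbT (R : Fin 5 → Fin 5 → ℝ) (p q : SO) : ℂ := if p.2 = q.2 then (R p.1 q.1 : ℂ) else 0

/-- indicator of a label. -/
def dl (p q : SO) : ℂ := if q = p then 1 else 0

theorem ind_prod (I J : Fin N → SO) : ind I J = ∏ i, dl (I i) (J i) := by
  unfold ind dl
  by_cases h : J = I
  · subst h; simp
  · rw [if_neg h]
    obtain ⟨i, hi⟩ := Function.ne_iff.1 h
    exact (Finset.prod_eq_zero (Finset.mem_univ i) (by rw [if_neg hi])).symm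

variable {R : Fin 5 → Fin 5 → ℝ}

theorem orbT_zero (hR : Blk R) (u : Fin 2) (q : SO) : orbT R (0, u) q = dl (0, u) q := by
  obtain ⟨j, v⟩ := q
  unfold orbT dl
  rw [hR.r0]
  by_cases h1 : u = v <;> by_cases h2 : j = 0 <;> simp [h1, h2, Prod.ext_iff]
  intro h3
  exact absurd h3.symm h1

theorem orbT_one (hR : Blk R) (u : Fin 2) (q : SO) : orbT R (1, u) q = dl (1, u) q := by
  obtain ⟨j, v⟩ := q
  unfold orbT dl
  rw [hR.r1]
  by_cases h1 : u = v <;> by_cases h2 : j = 1 <;> simp [h1, h2, Prod.ext_iff]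
  intro h3
  exact absurd h3.symm h1

theorem two_le_cases {j : Fin 5} (h0 : j ≠ 0) (h1 : j ≠ 1) : 2 ≤ j := by
  fin_cases j
  · exact absurd rfl h0
  · exact absurd rfl h1
  all_goals decide

theorem mem234 {j : Fin 5} : j ∈ ({2, 3, 4} : Finset (Fin 5)) ↔ 2 ≤ j := by
  fin_cases j <;> decide

theorem orbT_p (hR : Blk R) {e : Fin 5} (he : 2 ≤ e) (s : Fin 2) (q : SO) :
    orbT R (e, s) q = ∑ e' ∈ ({2, 3, 4} : Finset (Fin 5)), (R e e' : ℂ) * dl (e', s) q := by
  obtain ⟨j, v⟩ := q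
  unfold orbT dl
  simp only [Prod.mk.injEq]
  by_cases h1 : s = v
  · subst h1
    simp only [and_true, mul_ite, mul_one, mul_zero, Finset.sum_ite_eq, if_true]
    split_ifs with h2
    · rfl
    · rw [mem234] at h2
      by_cases h3 : j = 0
      · subst h3; simp [hR.z0 e he]
      · by_cases h4 : j = 1
        · subst h4; simp [hR.z1 e he]
        · exact absurd (two_le_cases h3 h4) h2
  · have h1' : ¬ (v = s) := fun h => h1 h.symm
    simp [h1, h1']

theorem orbT_pair (hR : Blk R) (p q : SO) :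
    ∑ a ∈ ({2, 3, 4} : Finset (Fin 5)), orbT R (a, 0) p * orbT R (a, 1) q =
      ∑ a ∈ ({2, 3, 4} : Finset (Fin 5)), dl (a, 0) p * dl (a, 1) q := by
  obtain ⟨j, v⟩ := p
  obtain ⟨k, w⟩ := q
  unfold orbT dl
  simp only [Prod.mk.injEq]
  by_cases hv : (0 : Fin 2) = v
  · by_cases hw : (1 : Fin 2) = w
    · subst hv
      subst hw
      simp only [and_true, if_true]
      have h := hR.col j k
      have h2 : ∑ a ∈ ({2, 3, 4} : Finset (Fin 5)), (R a j : ℂ) * (R a k : ℂ) =
          ((∑ a ∈ ({2, 3, 4} : Finset (Fin 5)), R a j * R a k : ℝ) : ℂ) := by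
        push_cast
        rfl
      rw [h2, h]
      have h3 : ∀ a, (if j = a then (1 : ℂ) else 0) * (if k = a then (1 : ℂ) else 0) =
          if j = a then (if j = k then 1 else 0) else 0 := by
        intro a
        by_cases h4 : j = a
        · subst h4
          by_cases h5 : j = k
          · subst h5; simp
          · have : ¬ (k = j) := fun h => h5 h.symm
            simp [h5, this]
        · simp [h4]
      simp only [h3, Finset.sum_ite_eq, mem234]
      by_cases h5 : j = k <;> by_cases h6 : 2 ≤ j <;> simp [h5, h6]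
      all_goals
        subst h5
        simp [h6]
    · have hw' : ¬ (w = 1) := fun h => hw h.symm
      simp [hw, hw']
  · have hv' : ¬ (v = 0) := fun h => hv h.symm
    simp [hv, hv']

theorem act_tup5_one (hR : Blk R) {e : Fin 5} (he : 2 ≤ e) (s : Fin 2) :
    act (orbT R) (ind (tup5 1 e s)) =
      ∑ e' ∈ ({2, 3, 4} : Finset (Fin 5)), (R e e' : ℂ) • ind (tup5 1 e' s) := by
  rw [act_ind]
  funext J
  simp only [Finset.sum_apply, Pi.smul_apply, smul_eq_mul, ind_prod, Fin.prod_univ_five]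
  have e0 : ∀ a, tup5 1 a s 0 = (0, 0) := fun _ => rfl
  have e1 : ∀ a, tup5 1 a s 1 = (0, 1) := fun _ => rfl
  have e2 : ∀ a, tup5 1 a s 2 = (1, 0) := fun _ => rfl
  have e3 : ∀ a, tup5 1 a s 3 = (1, 1) := fun _ => rfl
  have e4 : ∀ a, tup5 1 a s 4 = (a, s) := fun _ => rfl
  simp only [e0, e1, e2, e3, e4, orbT_zero hR, orbT_one hR, orbT_p hR he, Finset.mul_sum]
  exact Finset.sum_congr rfl fun a _ => by ring

theorem act_tup5_sum (hR : Blk R) {e : Fin 5} (he : 2 ≤ e) (s : Fin 2) :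
    act (orbT R) (∑ a ∈ ({2, 3, 4} : Finset (Fin 5)), ind (tup5 a e s)) =
      ∑ e' ∈ ({2, 3, 4} : Finset (Fin 5)), (R e e' : ℂ) •
        ∑ a ∈ ({2, 3, 4} : Finset (Fin 5)), ind (tup5 a e' s) := by
  rw [act_sum]
  funext J
  simp only [Finset.sum_apply, Pi.smul_apply, smul_eq_mul, act_ind, ind_prod, Fin.prod_univ_five]
  have e0 : ∀ b a, tup5 b a s 0 = (0, 0) := fun _ _ => rfl
  have e1 : ∀ b a, tup5 b a s 1 = (0, 1) := fun _ _ => rfl
  have e2 : ∀ b a, tup5 b a s 2 = (b, 0) := fun _ _ => rfl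
  have e3 : ∀ b a, tup5 b a s 3 = (b, 1) := fun _ _ => rfl
  have e4 : ∀ b a, tup5 b a s 4 = (a, s) := fun _ _ => rfl
  simp only [e0, e1, e2, e3, e4, orbT_zero hR]
  have h1 : ∑ a ∈ ({2, 3, 4} : Finset (Fin 5)), dl (0, 0) (J 0) * dl (0, 1) (J 1) *
      orbT R (a, 0) (J 2) * orbT R (a, 1) (J 3) * orbT R (e, s) (J 4) =
      dl (0, 0) (J 0) * dl (0, 1) (J 1) * orbT R (e, s) (J 4) *
        ∑ a ∈ ({2, 3, 4} : Finset (Fin 5)), orbT R (a, 0) (J 2) * orbT R (a, 1) (J 3) := by
    rw [Finset.mul_sum]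
    exact Finset.sum_congr rfl fun a _ => by ring
  rw [h1, orbT_pair hR, orbT_p hR he]
  simp only [Finset.mul_sum, Finset.sum_mul]
  rw [Finset.sum_comm]
  exact Finset.sum_congr rfl fun e' _ => Finset.sum_congr rfl fun a _ => by ring

/-- rotation of the atomic ground tensors. -/
theorem act_C5 (hR : Blk R) {e : Fin 5} (he : 2 ≤ e) (s : Fin 2) :
    act (orbT R) (C5 e s) = ∑ e' ∈ ({2, 3, 4} : Finset (Fin 5)), (R e e' : ℂ) • C5 e' s := by
  have h : ∀ e' ∈ ({2, 3, 4} : Finset (Fin 5)), (R e e' : ℂ) • C5 e' s =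
      asym ((R e e' : ℂ) • ((eta5 : ℂ) • (ind (tup5 1 e' s) +
      (t5 : ℂ) • ∑ a ∈ ({2, 3, 4} : Finset (Fin 5)), ind (tup5 a e' s)))) := by
    intro e' he'
    rw [C5_full (mem234.1 he'), ← asym_smul]
  rw [Finset.sum_congr rfl h, ← asym_sum, C5_full he, act_asym]
  congr 1
  rw [act_smul, act_add, act_smul, act_tup5_one hR he, act_tup5_sum hR he]
  simp only [Finset.smul_sum, smul_add, Finset.sum_add_distrib, smul_smul]
  congr 1
  · exact Finset.sum_congr rfl fun a _ => by rw [mul_comm]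
  · refine Finset.sum_congr rfl fun a _ => Finset.sum_congr rfl fun b _ => ?_
    congr 1
    ring

theorem act_tup4_one (hR : Blk R) : act (orbT R) (ind (tup4 1)) = ind (tup4 1) := by
  rw [act_ind]
  funext J
  simp only [ind_prod, Fin.prod_univ_four]
  have e0 : tup4 1 0 = (0, 0) := rfl
  have e1 : tup4 1 1 = (0, 1) := rfl
  have e2 : tup4 1 2 = (1, 0) := rfl
  have e3 : tup4 1 3 = (1, 1) := rfl
  simp only [e0, e1, e2, e3, orbT_zero hR, orbT_one hR]

theorem act_tup4_sum (hR : Blk R) :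
    act (orbT R) (∑ a ∈ ({2, 3, 4} : Finset (Fin 5)), ind (tup4 a)) =
        ∑ a ∈ ({2, 3, 4} : Finset (Fin 5)), ind (tup4 a) := by
  rw [act_sum]
  funext J
  simp only [Finset.sum_apply, act_ind, ind_prod, Fin.prod_univ_four]
  have e0 : ∀ b, tup4 b 0 = (0, 0) := fun _ => rfl
  have e1 : ∀ b, tup4 b 1 = (0, 1) := fun _ => rfl
  have e2 : ∀ b, tup4 b 2 = (b, 0) := fun _ => rfl
  have e3 : ∀ b, tup4 b 3 = (b, 1) := fun _ => rfl
  simp only [e0, e1, e2, e3, orbT_zero hR]
  simp only [mul_assoc, ← Finset.mul_sum]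
  rw [orbT_pair hR]

/-- rotation of the ionic ground tensor. -/
theorem act_C4 (hR : Blk R) : act (orbT R) C4 = C4 := by
  rw [C4_full, act_asym, act_smul, act_add, act_smul, act_tup4_one hR, act_tup4_sum hR]

/-! ### spin flip and spin phases -/

theorem asym_ind_comp (I : Fin N → SO) (σ : Equiv.Perm (Fin N)) :
    asym (ind (I ∘ σ)) = ((Equiv.Perm.sign σ : ℤ) : ℂ) • asym (ind I) := by
  funext J
  simp only [Pi.smul_apply, smul_eq_mul]
  unfold asym
  rw [Finset.mul_sum, ← Equiv.sum_comp (Equiv.mulRight σ)]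
  refine Finset.sum_congr rfl fun τ _ => ?_
  have h1 : ind (I ∘ σ) (J ∘ ⇑((Equiv.mulRight σ) τ)) = ind I (J ∘ τ) := by
    unfold ind
    have h2 : J ∘ ⇑((Equiv.mulRight σ) τ) = (J ∘ τ) ∘ σ := by
      funext k; simp
    have h3 : ((J ∘ τ) ∘ σ = I ∘ σ) ↔ (J ∘ τ = I) :=
      ⟨fun h => by
        funext k
        have := congrFun h (σ.symm k)
        simpa using this, fun h => by rw [h]⟩
    rw [h2]
    simp only [h3]
  rw [h1]
  simp only [Equiv.coe_mulRight, Equiv.Perm.sign_mul, Units.val_mul, Int.cast_mul]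
  ring

theorem asym_map (g : SO → SO) (b : Ten N) (J : Fin N → SO) :
    asym b (g ∘ J) = asym (fun K => b (g ∘ K)) J := rfl

/-- the spin flip of labels. -/
def flp (p : SO) : SO := (p.1, Equiv.swap 0 1 p.2)

theorem flp_flp (p : SO) : flp (flp p) = p := by
  simp [flp]

theorem ind_flp (I J : Fin N → SO) : ind I (flp ∘ J) = ind (flp ∘ I) J := by
  unfold ind
  have h : (flp ∘ J = I) ↔ (J = flp ∘ I) := by
    constructor
    · intro h
      rw [← h]
      funext i
      simp [flp_flp]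
    · intro h
      rw [h]
      funext i
      simp [flp_flp]
  simp only [h]

theorem asym_ind_flp (I J : Fin N → SO) : asym (ind I) (flp ∘ J) = asym (ind (flp ∘ I)) J := by
  rw [asym_map]
  congr 1
  funext K
  exact ind_flp I K

theorem flp_tup5 (a e : Fin 5) (s : Fin 2) :
    flp ∘ tup5 a e s = tup5 a e (Equiv.swap 0 1 s) ∘ (Equiv.swap 0 1 * Equiv.swap 2 3 :
      Equiv.Perm (Fin 5)) := by
  funext i
  fin_cases i <;> rfl

theorem flp_tup4 (a : Fin 5) :
    flp ∘ tup4 a = tup4 a ∘ (Equiv.swap 0 1 * Equiv.swap 2 3 : Equiv.Perm (Fin 4)) := by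
  funext i
  fin_cases i <;> rfl

/-- spin flip of the atomic ground tensors. -/
theorem C5_flp (e : Fin 5) (s : Fin 2) (J : Fin 5 → SO) :
    C5 e s (flp ∘ J) = C5 e (Equiv.swap 0 1 s) J := by
  rw [C5_eq, C5_eq]
  simp only [Pi.smul_apply, Finset.sum_apply, smul_eq_mul]
  refine congrArg (fun z => (eta5 : ℂ) * z) (Finset.sum_congr rfl fun a _ => ?_)
  rw [asym_ind_flp, flp_tup5, asym_ind_comp]
  have : (Equiv.Perm.sign (Equiv.swap 0 1 * Equiv.swap 2 3 : Equiv.Perm (Fin 5))) = 1 := by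
    rw [Equiv.Perm.sign_mul, Equiv.Perm.sign_swap (by decide), Equiv.Perm.sign_swap (by decide)]
    norm_num
  rw [this]
  simp

/-- spin flip of the ionic ground tensor. -/
theorem C4_flp (J : Fin 4 → SO) : C4 (flp ∘ J) = C4 J := by
  rw [C4_eq]
  simp only [Pi.smul_apply, Finset.sum_apply, smul_eq_mul]
  refine congrArg (fun z => (eta4 : ℂ) * z) (Finset.sum_congr rfl fun a _ => ?_)
  rw [asym_ind_flp, flp_tup4, asym_ind_comp]
  have : (Equiv.Perm.sign (Equiv.swap 0 1 * Equiv.swap 2 3 : Equiv.Perm (Fin 4))) = 1 := by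
    rw [Equiv.Perm.sign_mul, Equiv.Perm.sign_swap (by decide), Equiv.Perm.sign_swap (by decide)]
    norm_num
  rw [this]
  simp

theorem prod_of_asym_ind {I J : Fin N → SO} (h : asym (ind I) J ≠ 0) (ζ : SO → ℂ) :
    ∏ i, ζ (J i) = ∏ i, ζ (I i) := by
  obtain ⟨σ, hσ⟩ := exists_of_asym_ind_ne h
  rw [← hσ]
  exact (Equiv.prod_comp σ fun i => ζ (J i)).symm

/-- a spin phase on the atomic ground tensors. -/
theorem C5_phase (ζ : Fin 2 → ℂ) (e : Fin 5) (s : Fin 2) (J : Fin 5 → SO) :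
    (∏ i, ζ (J i).2) * C5 e s J = ζ 0 ^ 2 * ζ 1 ^ 2 * ζ s * C5 e s J := by
  rw [C5_eq]
  simp only [Pi.smul_apply, Finset.sum_apply, smul_eq_mul, Finset.mul_sum]
  refine Finset.sum_congr rfl fun a _ => ?_
  by_cases h : asym (ind (tup5 a e s)) J = 0
  · simp [h]
  · rw [prod_of_asym_ind h (fun p => ζ p.2)]
    have h2 : ∏ i, ζ (tup5 a e s i).2 = ζ 0 ^ 2 * ζ 1 ^ 2 * ζ s := by
      rw [Fin.prod_univ_five]
      change ζ 0 * ζ 1 * ζ 0 * ζ 1 * ζ s = _
      ring
    rw [h2]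

/-- a spin phase on the ionic ground tensor. -/
theorem C4_phase (ζ : Fin 2 → ℂ) (J : Fin 4 → SO) :
    (∏ i, ζ (J i).2) * C4 J = ζ 0 ^ 2 * ζ 1 ^ 2 * C4 J := by
  rw [C4_eq]
  simp only [Pi.smul_apply, Finset.sum_apply, smul_eq_mul, Finset.mul_sum]
  refine Finset.sum_congr rfl fun a _ => ?_
  by_cases h : asym (ind (tup4 a)) J = 0
  · simp [h]
  · rw [prod_of_asym_ind h (fun p => ζ p.2)]
    have h2 : ∏ i, ζ (tup4 a i).2 = ζ 0 ^ 2 * ζ 1 ^ 2 := by
      rw [Fin.prod_univ_four]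
      change ζ 0 * ζ 1 * ζ 0 * ζ 1 = _
      ring
    rw [h2]

end

end Vale.Agent.P363.H761
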